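import Vale.Agent.Helper23.KTV.Ryser

/-!
Glue lemma for the bipartite switch-chain project (problem P335):
a function on the tables with prescribed margins that is fixed by every two-row
conditional expectation is constant (by Ryser connectivity).
-/

namespace KTV

open Finset

section Tables

variable {α β : Type*} [Fintype α] [DecidableEq α] [Fintype β] [DecidableEq β]

namespace H23

theorem fibre_eq_of_mem {Ω : Finset (Tab α β)} {S : Finset α} {x y : Tab α β}
    (hy : y ∈ fibre Ω S x) : fibre Ω S y = fibre Ω S x := by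
  unfold fibre at hy ⊢
  rw [Finset.mem_filter] at hy
  ext z
  rw [Finset.mem_filter, Finset.mem_filter]
  constructor
  · rintro ⟨hz, hyz⟩
    exact ⟨hz, fun r hr => (hy.2 r hr).trans (hyz r hr)⟩
  · rintro ⟨hz, hxz⟩
    exact ⟨hz, fun r hr => (hy.2 r hr).symm.trans (hxz r hr)⟩

theorem cexp_eq_of_mem {Ω : Finset (Tab α β)} {S : Finset α} {x y : Tab α β}
    (hy : y ∈ fibre Ω S x) (f : Tab α β → ℝ) : cexp Ω S f y = cexp Ω S f x := by
  unfold cexp
  rw [fibre_eq_of_mem hy]

theorem switchRows_mem_fibre {ρ : α → ℕ} {c : β → ℕ} {a b : α} {x y : Tab α β}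
    (hx : x ∈ Omega ρ c) (h : SwitchRows a b x y) : y ∈ fibre (Omega ρ c) {a, b} x := by
  obtain ⟨j, k, hsw⟩ := h
  have hy : y ∈ Omega ρ c := IsSwitch.mem_Omega ⟨a, b, j, k, hsw⟩ hx
  unfold fibre
  rw [Finset.mem_filter]
  refine ⟨hy, ?_⟩
  intro r hr
  rw [Finset.mem_insert, Finset.mem_singleton, not_or] at hr
  obtain ⟨-, -, -, -, -, -, -, -, -, -, h9⟩ := hsw
  funext s
  exact (h9 r s (fun hh => by rcases hh.1 with h' | h' <;> [exact hr.1 h'; exact hr.2 h'])).symm

end H23

/-- If `f` is fixed on `Omega ρ c` by every two-row conditional expectation, then `f` takes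
the same value at any two tables of `Omega ρ c` that differ by a switch. -/
theorem eq_of_isSwitch_of_cexp_fixed (ρ : α → ℕ) (c : β → ℕ) (f : Tab α β → ℝ)
    (h : ∀ a b : α, a ≠ b → ∀ x ∈ Omega ρ c, cexp (Omega ρ c) {a, b} f x = f x)
    {x y : Tab α β} (hx : x ∈ Omega ρ c) (hxy : IsSwitch x y) : f x = f y := by
  obtain ⟨a, b, j, k, hsw⟩ := hxy
  have hab : a ≠ b := hsw.1
  have hy : y ∈ Omega ρ c := IsSwitch.mem_Omega ⟨a, b, j, k, hsw⟩ hx
  have hfib : y ∈ fibre (Omega ρ c) {a, b} x := H23.switchRows_mem_fibre hx ⟨j, k, hsw⟩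
  rw [← h a b hab x hx, ← h a b hab y hy, H23.cexp_eq_of_mem hfib f]

/-- If `f` is fixed on `Omega ρ c` by every two-row conditional expectation, then `f` is
constant on `Omega ρ c`. -/
theorem const_of_cexp_fixed (ρ : α → ℕ) (c : β → ℕ) (f : Tab α β → ℝ)
    (h : ∀ a b : α, a ≠ b → ∀ x ∈ Omega ρ c, cexp (Omega ρ c) {a, b} f x = f x)
    {x y : Tab α β} (hx : x ∈ Omega ρ c) (hy : y ∈ Omega ρ c) : f x = f y := by
  have hpath := ryser ρ c hx hy
  induction hpath with
  | refl => rfl
  | tail hxz hzy ih =>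
    rename_i z w
    have hz : z ∈ Omega ρ c := by
      clear ih hzy hy
      induction hxz with
      | refl => exact hx
      | tail _ hstep ih2 => exact IsSwitch.mem_Omega hstep ih2
    rw [ih hz]
    exact eq_of_isSwitch_of_cexp_fixed ρ c f h hz hzy

end Tables

end KTV
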